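import Crest.Agent.Lib.PD.Loop

/-! List primitives with explicit degrees. -/

set_option autoImplicit false
set_option linter.dupNamespace false

namespace Crest.Agent.Lib.PD

open Crest.Agent.Lib.PT

variable {α β γ δ σ : Type} [Enc α] [Enc β] [Enc γ] [Enc δ] [Enc σ]

omit [Enc β] [Enc γ] in
theorem primB_foldl_flatMap (g : β → List γ) (l : List β) (acc : List γ) :
    l.foldl (fun acc x => acc ++ g x) acc = acc ++ l.flatMap g := by
  induction l generalizing acc with
  | nil => simp
  | cons x l ih => simp [ih]

theorem primB_sz_flatMap {g : β → List γ} (h : ∀ x, sz (g x) ≤ sz x + 2) (l : List β) :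
    sz (l.flatMap g) ≤ sz l := by
  induction l with
  | nil => simp
  | cons x l ih =>
    have h1 := sz_append (g x) (l.flatMap g)
    have h2 := h x
    rw [List.flatMap_cons, sz_cons]
    omega

theorem primB_flatMap {g : β → List γ} (hg : PD 1 1 g) (h : ∀ x, sz (g x) ≤ sz x + 2) :
    PD 3 1 (fun l : List β => l.flatMap g) := by
  have := PD.foldl (f := fun (_ : List β) (acc : List γ) (x : β) => acc ++ g x)
    (l := fun l => l) (ini := fun _ => []) (fun l => sz l)
    (PD.id.snd.fst.append (hg.comp PD.id.snd.snd)) PD.id (PD.const []) DB.sz_id (fun l i => by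
      rw [primB_foldl_flatMap, List.nil_append]
      exact (primB_sz_flatMap h _).trans (sz_take_le i l))
  exact (this.congr fun a => by rw [primB_foldl_flatMap, List.nil_append]).mono (by simp) le_rfl

theorem primB_flatten : PD 3 1 (fun l : List (List β) => l.flatten) :=
  (primB_flatMap (g := fun x : List β => x) PD.id (fun x => by omega)).congr fun l => by simp

theorem pd_flatten : PD 4 1 (fun l : List (List β) => l.flatten) := by
  exact primB_flatten.mono (by norm_num) le_rfl

omit [Enc β] [Enc γ] in
theorem primB_foldl_zip (l : List β) (u : List γ) (v : List (β × γ)) :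
    l.foldl (fun (s : List γ × List (β × γ)) x =>
      s.1.head?.elim s (fun y => (s.1.tail, s.2 ++ [(x, y)]))) (u, v) =
      (u.drop l.length, v ++ l.zip u) := by
  induction l generalizing u v with
  | nil => simp
  | cons x l ih =>
    cases u with
    | nil => simpa using ih [] v
    | cons y u => simpa using ih u (v ++ [(x, y)])

theorem primB_sz_zip (l : List β) (u : List γ) : sz (l.zip u) ≤ sz l + sz u := by
  induction l generalizing u with
  | nil => simp
  | cons x l ih =>
    cases u with
    | nil => simp
    | cons y u =>
      have := ih u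
      simp only [List.zip_cons_cons, sz_cons, sz_pair]
      omega

theorem pd_zip : PD 3 1 (fun p : List β × List γ => p.1.zip p.2) := by
  have h1 : PD 2 1 (fun p : ((List β × List γ) × (List γ × List (β × γ)) × β) × γ =>
      (p.1.2.1.1.tail, p.1.2.1.2 ++ [(p.1.2.2, p.2)])) :=
    (PD.id.fst.snd.fst.fst.tail.pair (PD.id.fst.snd.fst.snd.append
      ((PD.id.fst.snd.snd.pair PD.id.snd).cons (PD.const [])))).mono (by simp) (by simp)
  have := PD.foldl (f := fun (_ : List β × List γ) (s : List γ × List (β × γ)) (x : β) =>
      s.1.head?.elim s (fun y => (s.1.tail, s.2 ++ [(x, y)])))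
    (l := fun p => p.1) (ini := fun p => (p.2, [])) (fun p => 2 * sz p)
    (PD.optionElim (g := fun (p : (List β × List γ) × (List γ × List (β × γ)) × β) y =>
      (p.2.1.1.tail, p.2.1.2 ++ [(p.2.2, y)])) PD.id.snd.fst.fst.head? PD.id.snd.fst h1)
    PD.id.fst (PD.id.snd.pair (PD.const [])) (DB.sz_id.const_mul 2) (fun p i => by
      have h1 := sz_take_le i p.1
      have h2 := primB_sz_zip (p.1.take i) p.2
      have h3 := sz_drop_le (p.1.take i).length p.2
      rw [primB_foldl_zip, List.nil_append, sz_pair, sz_prod p]
      omega)
  exact (this.snd.congr fun a => by rw [primB_foldl_zip, List.nil_append]).mono (by simp) le_rfl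

theorem pd_keep : PD 3 1 (fun l : List (β × Bool) => (l.filter (fun p => p.2)).map (fun p => p.1)) := by
  refine (primB_flatMap (g := fun p : β × Bool => cond p.2 [p.1] [])
    ((PD.id.snd.cond (PD.id.fst.cons (PD.const [])) (PD.const [])).mono (by simp) (by simp))
    (fun p => ?_)).congr fun l => ?_
  · rcases p with ⟨x, b⟩
    cases b <;> simp
  · induction l with
    | nil => simp
    | cons p l ih =>
      rcases p with ⟨x, b⟩
      cases b <;> simp [ih]

theorem pd_orL : PD 3 0 (fun l : List Bool => l.any (fun b => b)) := by
  have key : ∀ (l : List Bool) (c : Bool), l.foldl (fun acc b => acc || b) c =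
      (c || l.any (fun b => b)) := by
    intro l
    induction l with
    | nil => simp
    | cons x l ih => intro c; simp [ih, Bool.or_assoc]
  have := PD.foldl (f := fun (_ : List Bool) (acc : Bool) (x : Bool) => acc || x)
    (l := fun l => l) (ini := fun _ => false) (fun _ => 5)
    (PD.id.snd.fst.or PD.id.snd.snd) PD.id (PD.const false) (DB.const 5) (fun l i => by simp)
  exact (this.congr fun a => by rw [key, Bool.false_or]).mono (by simp) le_rfl

theorem pd_reduce : PD 3 1 (fun l : List (Option β) => l.filterMap (fun o => o)) := by
  refine (primB_flatMap (g := fun o : Option β => o.elim [] (fun x => [x]))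
    ((PD.optionElim (g := fun (_ : Option β) (x : β) => [x]) PD.id (PD.const [])
      (PD.id.snd.cons (PD.const []))).mono (by simp) (by simp))
    (fun o => ?_)).congr fun l => ?_
  · cases o <;> simp
  · induction l with
    | nil => simp
    | cons o l ih => cases o <;> simp [ih]

/-- The entries before the first `true`. -/
theorem pd_before : PD 3 1 (fun l : List Bool => l.takeWhile (fun b => !b)) := by
  refine (PD.of_while (σ := List Bool × List Bool) (fun s => (s.1.tail, s.2 ++ [false]))
    (fun s => !s.1.headD true) (fun l => (l, [])) (fun s => s.2)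
    (fun l s => l = s.2 ++ s.1 ∧ ∀ b ∈ s.2, b = false) (fun s => s.1.length) (fun l => sz l + 2)
    (PD.id.fst.tail.pair (PD.id.snd.append (PD.const [false])))
    (PD.id.fst.headD (PD.const true)).not (PD.id.pair (PD.const [])) PD.id.snd
    PD.id.length_le (DB.sz_id.add_const 2) (fun l => by simp) ?_ ?_ ?_).mono (by simp) (by simp)
  · rintro l ⟨r, acc⟩ ⟨h1, h2⟩ hc
    cases r with
    | nil => simp at hc
    | cons x r =>
      have hx : x = false := by simpa using hc
      subst hx
      refine ⟨⟨by simpa using h1, fun b hb => ?_⟩, by simp⟩
      rcases List.mem_append.1 hb with hb | hb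
      · exact h2 b hb
      · simpa using hb
  · rintro l ⟨r, acc⟩ ⟨h1, -⟩
    have := sz_append acc r
    simp only at h1
    rw [h1, sz_pair]
    omega
  · rintro l ⟨r, acc⟩ ⟨h1, h2⟩ hc
    simp only at h1 h2 hc ⊢
    rw [h1, List.takeWhile_append_of_pos (fun b hb => by simp [h2 b hb])]
    cases r with
    | nil => simp
    | cons x r =>
      have hx : x = true := by simpa using hc
      subst hx
      simp

theorem sz_product_le (l : List β) (m : List γ) : sz (l.product m) ≤ 3 * (sz l * sz m) := by
  have key : ∀ (x : β) (m : List γ), sz (m.map (Prod.mk x)) ≤ (sz x + 2) * sz m := by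
    intro x m
    induction m with
    | nil => simp
    | cons y m ih =>
      have := sz_pos y
      simp only [List.map_cons, sz_cons, sz_pair]
      nlinarith
  induction l with
  | nil =>
    have := sz_pos m
    simp [List.product]
    omega
  | cons x l ih =>
    have h1 := sz_append_le (m.map (Prod.mk x)) (l.product m)
    have h2 := key x m
    have h3 : (x :: l).product m = m.map (Prod.mk x) ++ l.product m := by
      simp [List.product]
    rw [h3, sz_cons]
    nlinarith

theorem pd_product : PD 10 2 (fun p : List β × List γ => p.1.product p.2) := by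
  have h1 := PD.map (l := fun p : (List β × List γ) × β => p.1.2)
    (g := fun (p : (List β × List γ) × β) (y : γ) => (p.2, y)) PD.id.fst.snd
    (PD.id.fst.snd.pair PD.id.snd)
  have h2 := PD.map (l := fun p : List β × List γ => p.1)
    (g := fun (p : List β × List γ) (x : β) => p.2.map (fun y => (x, y))) PD.id.fst h1
  refine (((primB_flatten.comp h2).congr fun p => ?_).of_size
    (((PD.id.fst.size.mul PD.id.snd.size).const_mul 3).of_le fun p => sz_product_le _ _)).mono
    (by simp) le_rfl
  simp [List.product, List.flatMap]

end Crest.Agent.Lib.PD
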