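import Crest.Agent.Lib.PD.PrimA
import Crest.Agent.Lib.PD.PrimB
import Crest.Agent.Lib.PT.Compile
import Crest.Prelude.Def_BitEnc

/-! Composed forms of the primitives, the tactic `pd` and the bridge to `TimeBound`. -/

set_option autoImplicit false
set_option linter.dupNamespace false

namespace Crest.Agent.Lib.PD

open Crest.Agent.Lib.PT

variable {α β γ δ σ : Type} [Enc α] [Enc β] [Enc γ] [Enc δ] [Enc σ]

variable {t s t₁ s₁ t₂ s₂ : ℕ}

protected theorem PD.decide_eq {f g : α → β} [∀ a, Decidable (f a = g a)] (hf : PD t₁ s₁ f)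
    (hg : PD t₂ s₂ g) :
    PD (max (max t₁ t₂) (3 * max s₁ s₂)) 0 (fun a => decide (f a = g a)) :=
  ((pd_eqD.comp (hf.enc.pair hg.enc)).congr fun a => by
    simp only [Enc.inj.eq_iff]).bool

protected theorem PD.beq [BEq β] [LawfulBEq β] {f g : α → β} (hf : PD t₁ s₁ f) (hg : PD t₂ s₂ g) :
    PD (max (max t₁ t₂) (3 * max s₁ s₂)) 0 (fun a => f a == g a) := by
  classical
  exact (hf.decide_eq hg).congr fun a => by rw [Bool.eq_iff_iff]; simp

protected theorem PD.bne [BEq β] [LawfulBEq β] {f g : α → β} (hf : PD t₁ s₁ f) (hg : PD t₂ s₂ g) :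
    PD (max (max (max t₁ t₂) (3 * max s₁ s₂)) 1) 0 (fun a => f a != g a) := (hf.beq hg).not

protected theorem PD.decide_lt {n m : α → ℕ} [∀ a, Decidable (n a < m a)] (hn : PD t₁ s₁ n)
    (hm : PD t₂ s₂ m) : PD (max (max t₁ t₂) (6 * max s₁ s₂)) 0 (fun a => decide (n a < m a)) :=
  ((pd_lt.comp (hn.pair hm)).congr fun a => by simp).bool

protected theorem PD.succ {n : α → ℕ} (hn : PD t s n) :
    PD (max t (6 * s)) (1 * s) (fun a => n a + 1) := pd_succ.comp hn

protected theorem PD.rangeLen {l : α → List β} (hl : PD t s l) :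
    PD (max t (20 * s)) (2 * s) (fun a => List.range (l a).length) := pd_rangeLen.comp hl

protected theorem PD.length {l : α → List β} (hl : PD t s l) :
    PD (max t (8 * s)) (1 * s) (fun a => (l a).length) := pd_length.comp hl

protected theorem PD.flatten {l : α → List (List β)} (hl : PD t s l) :
    PD (max t (4 * s)) (1 * s) (fun a => (l a).flatten) := pd_flatten.comp hl

protected theorem PD.zip {l : α → List β} {m : α → List γ} (hl : PD t₁ s₁ l) (hm : PD t₂ s₂ m) :
    PD (max (max t₁ t₂) (3 * max s₁ s₂)) (1 * max s₁ s₂) (fun a => (l a).zip (m a)) :=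
  pd_zip.comp (hl.pair hm)

protected theorem PD.product {l : α → List β} {m : α → List γ} (hl : PD t₁ s₁ l)
    (hm : PD t₂ s₂ m) :
    PD (max (max t₁ t₂) (10 * max s₁ s₂)) (s₁ + s₂) (fun a => (l a).product (m a)) :=
  (pd_product.comp (hl.pair hm)).of_size
    (((hl.size.mul hm.size).const_mul 3).of_le fun _ => sz_product_le _ _)

/-- Time degree of mapping a Boolean test over a list. -/
def tb (t₁ s₁ t₂ : ℕ) : ℕ := max (max t₁ 1) (s₁ + max (t₂ * max 1 s₁) (1 + 3 * s₁))

theorem PD.mapB {l : α → List β} {g : α → β → Bool} (hl : PD t₁ s₁ l)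
    (hg : PD t₂ s₂ (fun p : α × β => g p.1 p.2)) :
    PD (tb t₁ s₁ t₂) s₁ (fun a => (l a).map (g a)) :=
  (hl.map hg.bool).mono (by unfold tb; omega) (by simp)

protected theorem PD.filter {l : α → List β} {g : α → β → Bool} (hl : PD t₁ s₁ l)
    (hg : PD t₂ s₂ (fun p : α × β => g p.1 p.2)) :
    PD (tb t₁ s₁ t₂) s₁ (fun a => (l a).filter (g a)) :=
  ((pd_keep.comp (hl.zip (hl.mapB hg))).congr fun a => by
    induction l a with
    | nil => simp
    | cons x m ih => by_cases h : g a x <;> simp_all).mono (by unfold tb; omega) (by simp)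

protected theorem PD.any {l : α → List β} {g : α → β → Bool} (hl : PD t₁ s₁ l)
    (hg : PD t₂ s₂ (fun p : α × β => g p.1 p.2)) :
    PD (tb t₁ s₁ t₂) 0 (fun a => (l a).any (g a)) :=
  ((pd_orL.comp (hl.mapB hg)).congr fun a => by simp [Function.comp_def]).mono (by unfold tb; omega) (by simp)

protected theorem PD.all {l : α → List β} {g : α → β → Bool} (hl : PD t₁ s₁ l)
    (hg : PD t₂ s₂ (fun p : α × β => g p.1 p.2)) :
    PD (tb t₁ s₁ (max t₂ 1)) 0 (fun a => (l a).all (g a)) :=
  (((hl.any (g := fun a x => !g a x) hg.not).not).congr fun a => by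
    rw [Bool.eq_iff_iff]; simp).mono (by unfold tb; omega) le_rfl

protected theorem PD.find? {l : α → List β} {g : α → β → Bool} (hl : PD t₁ s₁ l)
    (hg : PD t₂ s₂ (fun p : α × β => g p.1 p.2)) :
    PD (tb t₁ s₁ t₂) s₁ (fun a => (l a).find? (g a)) :=
  ((hl.filter hg).head?.congr fun a => by simp).mono (by unfold tb; omega) le_rfl

protected theorem PD.contains [BEq β] [LawfulBEq β] {x : α → β} {l : α → List β}
    (hl : PD t₁ s₁ l) (hx : PD t₂ s₂ x) :
    PD (max (max t₁ t₂) (tb 1 1 3 * max s₁ s₂)) 0 (fun a => (l a).contains (x a)) := by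
  have h : PD (tb 1 1 3) 0 (fun p : List β × β => p.1.contains p.2) :=
    ((PD.any (g := fun (p : List β × β) y => p.2 == y) PD.id.fst
      ((PD.id.fst.snd.beq PD.id.snd).mono (t₂ := 3) (by simp) le_rfl)).congr
      fun p => by rw [Bool.eq_iff_iff]; simp)
  exact (h.comp (hl.pair hx)).bool

protected theorem PD.filterMap {l : α → List β} {g : α → β → Option γ} (hl : PD t₁ s₁ l)
    (hg : PD t₂ s₂ (fun p : α × β => g p.1 p.2)) :
    PD (max (max t₁ 1) (s₁ + max (t₂ * max 1 s₁) (1 + 3 * (s₁ + s₂ * max 1 s₁))))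
      (s₁ + s₂ * max 1 s₁) (fun a => (l a).filterMap (g a)) :=
  ((pd_reduce.comp (hl.map hg)).congr fun a => by simp [List.filterMap_map]).mono
    (by omega) (by simp)

protected theorem PD.findSome? {l : α → List β} {g : α → β → Option γ} (hl : PD t₁ s₁ l)
    (hg : PD t₂ s₂ (fun p : α × β => g p.1 p.2)) :
    PD (max (max t₁ 1) (s₁ + max (t₂ * max 1 s₁) (1 + 3 * (s₁ + s₂ * max 1 s₁))))
      (s₁ + s₂ * max 1 s₁) (fun a => (l a).findSome? (g a)) :=
  ((hl.filterMap hg).head?.congr fun a => by simp).mono (by omega) le_rfl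

protected theorem PD.findIdx {l : α → List β} {g : α → β → Bool} (hl : PD t₁ s₁ l)
    (hg : PD t₂ s₂ (fun p : α × β => g p.1 p.2)) :
    PD (max (tb t₁ s₁ t₂) (8 * s₁)) s₁ (fun a => (l a).findIdx (g a)) :=
  ((pd_before.comp (hl.mapB hg)).length.congr fun a => by
    induction l a with
    | nil => simp
    | cons x m ih => by_cases h : g a x <;> simp_all [List.findIdx_cons]).mono
    (by unfold tb; omega) (by simp)

protected theorem PD.bits {n : α → ℕ} (hn : PD t s n) : PD t s (fun a => (n a).bits) :=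
  hn.of_enc fun _ => rfl

theorem pd_natCode : PD 5 1 Crest.Enc.natCode := by
  have h1 : PD 4 1 (fun n : ℕ => n.bits.map fun b => [true, b]) :=
    (PD.map (g := fun _ b => [true, b]) PD.id.bits
      ((PD.const true).cons (PD.id.snd.bool.cons (PD.const [])))).mono (by simp) (by simp)
  exact (h1.flatten.append (PD.const [false, false])).mono (by simp) (by simp)

protected theorem PD.natCode {n : α → ℕ} (hn : PD t s n) :
    PD (max t (5 * s)) (1 * s) (fun a => Crest.Enc.natCode (n a)) := pd_natCode.comp hn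

theorem pd_listCode : PD 10 2 Crest.Enc.listCode :=
  (PD.id.length.natCode.append (PD.map (g := fun _ n => Crest.Enc.natCode n) PD.id
    PD.id.snd.natCode).flatten).mono (by simp) (by simp)

protected theorem PD.listCode {l : α → List ℕ} (hl : PD t s l) :
    PD (max t (10 * s)) (2 * s) (fun a => Crest.Enc.listCode (l a)) := pd_listCode.comp hl

/-- Bridge to the time bound of the statements. -/
theorem PD.timeBound {f : List Bool → List Bool} (h : PD t s f) {k : ℕ} (hk : t ≤ k) :
    ∃ C : ℕ, Crest.DTime.TimeBound f (fun L => C * (L + 2) ^ k + C) := by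
  obtain ⟨⟨T, ⟨c, hT⟩, p, hp⟩, -⟩ := h.mono hk le_rfl
  obtain ⟨K, M, hM⟩ := timeBoundComputable_of_evalLe encBool encBool
    (Enc.inj (α := Bool)) (Computability.encodingList Bool).encode
    (Computability.encodingList Bool).encode f p (fun L => c * (6 * (L + 2)) ^ k) (fun a =>
      (hp a).mono ((hT a).trans (Nat.mul_le_mul_left c (Nat.pow_le_pow_left (by
        rw [sz_boolList]; show _ ≤ 6 * (a.length + 2); omega) k))))
  refine ⟨K * c * 6 ^ k, M, fun n => (hM n).trans ?_⟩
  beta_reduce
  rw [mul_pow]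
  exact le_trans (le_of_eq (by ring)) (Nat.le_add_right _ _)

end Crest.Agent.Lib.PD
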