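import Mathlib
import Crest.Agent.Lib.PT.List

/-!
Polynomial time with explicit degrees: `PD t s f` says that `f` is computed at cost
`O(sz a ^ t)` and that its value has size `O(sz a ^ s)`.
-/

set_option autoImplicit false
set_option linter.dupNamespace false

namespace Crest.Agent.Lib.PD

open Crest.Agent.Lib.PT

/-- `n a = O(sz a ^ s)`. -/
def DB {α : Type} [Enc α] (s : ℕ) (n : α → ℕ) : Prop := ∃ c : ℕ, ∀ a, n a ≤ c * sz a ^ s

/-- Time degree `t`, output size degree `s`. -/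
def PD {α β : Type} [Enc α] [Enc β] (t s : ℕ) (f : α → β) : Prop :=
  (∃ T, DB t T ∧ TimeF f T) ∧ DB s (fun a => sz (f a))

variable {α β γ δ σ : Type} [Enc α] [Enc β] [Enc γ] [Enc δ] [Enc σ]
variable {t s t₁ s₁ t₂ s₂ t₃ s₃ : ℕ}

protected theorem DB.of_le {n m : α → ℕ} (hm : DB s m) (h : ∀ a, n a ≤ m a) : DB s n := by
  obtain ⟨c, hm⟩ := hm
  exact ⟨c, fun a => (h a).trans (hm a)⟩

protected theorem DB.mono {n : α → ℕ} (h : DB s₁ n) (hs : s₁ ≤ s₂) : DB s₂ n := by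
  obtain ⟨c, h⟩ := h
  exact ⟨c, fun a => (h a).trans (Nat.mul_le_mul_left c (Nat.pow_le_pow_right (sz_pos a) hs))⟩

protected theorem DB.const (c : ℕ) : DB 0 (fun _ : α => c) := ⟨c, fun a => by simp⟩

protected theorem DB.sz_id : DB 1 (fun a : α => sz a) := ⟨1, fun a => by simp⟩

protected theorem DB.add_same {n m : α → ℕ} (hn : DB s n) (hm : DB s m) : DB s (fun a => n a + m a) := by
  obtain ⟨c, hn⟩ := hn
  obtain ⟨c', hm⟩ := hm
  exact ⟨c + c', fun a => by rw [add_mul]; exact Nat.add_le_add (hn a) (hm a)⟩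

protected theorem DB.add {n m : α → ℕ} (hn : DB s₁ n) (hm : DB s₂ m) :
    DB (max s₁ s₂) (fun a => n a + m a) :=
  (hn.mono (le_max_left _ _)).add_same (hm.mono (le_max_right _ _))

protected theorem DB.add_const {n : α → ℕ} (hn : DB s n) (c : ℕ) : DB s (fun a => n a + c) :=
  hn.add_same ((DB.const c).mono (Nat.zero_le _))

protected theorem DB.mul {n m : α → ℕ} (hn : DB s₁ n) (hm : DB s₂ m) :
    DB (s₁ + s₂) (fun a => n a * m a) := by
  obtain ⟨c, hn⟩ := hn
  obtain ⟨c', hm⟩ := hm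
  refine ⟨c * c', fun a => (Nat.mul_le_mul (hn a) (hm a)).trans (le_of_eq (by ring))⟩

protected theorem DB.const_mul {n : α → ℕ} (hn : DB s n) (c : ℕ) : DB s (fun a => c * n a) := by
  simpa using (DB.const c).mul hn

protected theorem DB.pow {n : α → ℕ} (hn : DB s n) (k : ℕ) : DB (k * s) (fun a => n a ^ k) := by
  obtain ⟨c, hn⟩ := hn
  refine ⟨c ^ k, fun a => (Nat.pow_le_pow_left (hn a) k).trans (le_of_eq ?_)⟩
  rw [mul_pow, ← pow_mul, mul_comm s k]

protected theorem DB.exists_bound {g : β → ℕ} (hg : DB s g) :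
    ∃ c : ℕ, ∀ b B, sz b ≤ B → g b ≤ c * B ^ s := by
  obtain ⟨c, hg⟩ := hg
  exact ⟨c, fun b B h => (hg b).trans (Nat.mul_le_mul_left c (Nat.pow_le_pow_left h s))⟩

protected theorem DB.comp {g : β → ℕ} {f : α → β} (hg : DB s₁ g) (hf : DB s₂ (fun a => sz (f a))) :
    DB (s₁ * s₂) (fun a => g (f a)) := by
  obtain ⟨c, hg⟩ := hg
  exact ((hf.pow s₁).const_mul c).of_le fun a => hg (f a)

protected theorem PD.size {f : α → β} (h : PD t s f) : DB s (fun a => sz (f a)) := h.2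

protected theorem PD.size_time {f : α → β} (h : PD t s f) : DB t (fun a => sz (f a)) := by
  obtain ⟨⟨T, hT, h⟩, -⟩ := h
  exact hT.of_le h.sz_le

protected theorem PD.size_in {f : α → β} (h : PD t s f) : DB t (fun a : α => sz a) := by
  obtain ⟨⟨T, hT, h⟩, -⟩ := h
  exact hT.of_le h.sz_in_le

protected theorem PD.length_le {l : α → List β} (h : PD t s l) : DB s (fun a => (l a).length) :=
  h.2.of_le fun a => length_le_sz (l a)

protected theorem PD.mono {f : α → β} (h : PD t₁ s₁ f) (ht : t₁ ≤ t₂) (hs : s₁ ≤ s₂) : PD t₂ s₂ f := by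
  obtain ⟨⟨T, hT, h⟩, h2⟩ := h
  exact ⟨⟨T, hT.mono ht, h⟩, h2.mono hs⟩

/-- Replace the size degree by a better one. -/
protected theorem PD.of_size {f : α → β} (h : PD t s₁ f) (hs : DB s₂ (fun a => sz (f a))) : PD t s₂ f :=
  ⟨h.1, hs⟩

protected theorem PD.of_enc {f : α → β} {g : α → γ} (h : PD t s g) (hfg : ∀ a, enc (f a) = enc (g a)) :
    PD t s f := by
  obtain ⟨⟨T, hT, h⟩, h2⟩ := h
  exact ⟨⟨T, hT, h.of_enc hfg⟩, h2.of_le fun a => by unfold sz; rw [hfg]⟩

protected theorem PD.congr {f g : α → β} (h : PD t s g) (hfg : ∀ a, f a = g a) : PD t s f :=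
  h.of_enc fun a => by rw [hfg]

protected theorem PD.id : PD 1 1 (fun a : α => a) := ⟨⟨_, DB.sz_id, TimeF.id⟩, DB.sz_id⟩

protected theorem PD.const (b : β) : PD 1 0 (fun _ : α => b) :=
  ⟨⟨_, DB.sz_id.const_mul _, TimeF.const b⟩, DB.const _⟩

protected theorem PD.comp {g : β → γ} {f : α → β} (hg : PD t₁ s₁ g) (hf : PD t₂ s₂ f) :
    PD (max t₂ (t₁ * s₂)) (s₁ * s₂) (fun a => g (f a)) := by
  obtain ⟨⟨S, hS, hg⟩, hg2⟩ := hg
  obtain ⟨⟨T, hT, hf⟩, hf2⟩ := hf
  exact ⟨⟨_, hT.add (hS.comp hf2), hg.comp hf⟩, DB.comp (g := fun b => sz (g b)) hg2 hf2⟩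

protected theorem PD.pair {f : α → β} {g : α → γ} (hf : PD t₁ s₁ f) (hg : PD t₂ s₂ g) :
    PD (max t₁ t₂) (max s₁ s₂) (fun a => (f a, g a)) := by
  obtain ⟨⟨S, hS, hf⟩, hf2⟩ := hf
  obtain ⟨⟨T, hT, hg⟩, hg2⟩ := hg
  exact ⟨⟨_, (hS.add hT).add_const 1, hf.pair hg⟩, (hf2.add hg2).add_const 1⟩

protected theorem PD.comp₂ {g : β → γ → δ} {f₁ : α → β} {f₂ : α → γ}
    (hg : PD t s (fun p : β × γ => g p.1 p.2)) (h₁ : PD t₁ s₁ f₁) (h₂ : PD t₂ s₂ f₂) :
    PD (max (max t₁ t₂) (t * max s₁ s₂)) (s * max s₁ s₂) (fun a => g (f₁ a) (f₂ a)) :=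
  hg.comp (h₁.pair h₂)

protected theorem PD.enc {f : α → β} (hf : PD t s f) : PD t s (fun a => enc (f a)) := hf.of_enc fun _ => rfl

protected theorem PD.car {f : α → D} (hf : PD t s f) : PD t s (fun a => (f a).car) := by
  have h0 := hf.size_time
  obtain ⟨⟨T, hT, hf⟩, hf2⟩ := hf
  have h1 : TimeF (D.car) (fun a => sz a) := ⟨.car, fun a => (Eval.car a).evalLe⟩
  exact ⟨⟨_, hT.add_same h0, h1.comp hf⟩, hf2.of_le fun a => D.size_car_le _⟩

protected theorem PD.cdr {f : α → D} (hf : PD t s f) : PD t s (fun a => (f a).cdr) := by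
  have h0 := hf.size_time
  obtain ⟨⟨T, hT, hf⟩, hf2⟩ := hf
  have h1 : TimeF (D.cdr) (fun a => sz a) := ⟨.cdr, fun a => (Eval.cdr a).evalLe⟩
  exact ⟨⟨_, hT.add_same h0, h1.comp hf⟩, hf2.of_le fun a => D.size_cdr_le _⟩

protected theorem PD.dcons {f g : α → D} (hf : PD t₁ s₁ f) (hg : PD t₂ s₂ g) :
    PD (max t₁ t₂) (max s₁ s₂) (fun a => D.cons (f a) (g a)) := (hf.pair hg).of_enc fun _ => rfl

protected theorem PD.iteNil {c : α → D} {f g : α → β} (hc : PD t₁ s₁ c) (hf : PD t₂ s₂ f)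
    (hg : PD t₃ s₃ g) :
    PD (max t₁ (max t₂ t₃)) (max s₂ s₃) (fun a => D.iteNil (c a) (f a) (g a)) := by
  obtain ⟨⟨R, hR, hc⟩, -⟩ := hc
  obtain ⟨⟨S, hS, hf⟩, hf2⟩ := hf
  obtain ⟨⟨T, hT, hg⟩, hg2⟩ := hg
  refine ⟨⟨_, (hR.add (hS.add hT)).of_le fun a => ?_, hc.iteNil hf hg⟩,
    (hf2.add hg2).of_le fun a => ?_⟩
  · cases c a <;> simp
  · beta_reduce
    cases h : c a <;> simp

protected theorem PD.fst {f : α → β × γ} (hf : PD t s f) : PD t s (fun a => (f a).1) :=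
  hf.enc.car.of_enc fun _ => rfl

protected theorem PD.snd {f : α → β × γ} (hf : PD t s f) : PD t s (fun a => (f a).2) :=
  hf.enc.cdr.of_enc fun _ => rfl

protected theorem PD.cond {c : α → Bool} {f g : α → β} (hc : PD t₁ s₁ c) (hf : PD t₂ s₂ f)
    (hg : PD t₃ s₃ g) :
    PD (max t₁ (max t₃ t₂)) (max s₃ s₂) (fun a => cond (c a) (f a) (g a)) :=
  (hc.enc.car.iteNil hg hf).congr fun a => by cases c a <;> rfl

protected theorem PD.ite {P : α → Prop} [∀ a, Decidable (P a)] {f g : α → β}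
    (hP : PD t₁ s₁ (fun a => decide (P a))) (hf : PD t₂ s₂ f) (hg : PD t₃ s₃ g) :
    PD (max t₁ (max t₃ t₂)) (max s₃ s₂) (fun a => if P a then f a else g a) :=
  (hP.cond hf hg).congr fun a => by by_cases h : P a <;> simp [h]

protected theorem PD.bool {c : α → Bool} (hc : PD t s c) : PD t 0 c :=
  hc.of_size ((DB.const 5).of_le fun a => by simp)

protected theorem PD.not {c : α → Bool} (hc : PD t s c) : PD (max t 1) 0 (fun a => !(c a)) :=
  (((hc.cond (PD.const false) (PD.const true)).congr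
    fun a => by cases c a <;> rfl).mono (by simp) le_rfl).bool

protected theorem PD.and {c d : α → Bool} (hc : PD t₁ s₁ c) (hd : PD t₂ s₂ d) :
    PD (max t₁ (max 1 t₂)) 0 (fun a => (c a && d a)) :=
  ((hc.cond hd (PD.const false)).congr fun a => by cases c a <;> rfl).bool

protected theorem PD.or {c d : α → Bool} (hc : PD t₁ s₁ c) (hd : PD t₂ s₂ d) :
    PD (max t₁ (max t₂ 1)) 0 (fun a => (c a || d a)) :=
  ((hc.cond (PD.const true) hd).congr fun a => by cases c a <;> rfl).bool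

protected theorem PD.some {f : α → β} (hf : PD t s f) : PD (max 1 t) (max 0 s) (fun a => some (f a)) :=
  ((PD.const D.nil).dcons hf.enc).of_enc fun _ => rfl

protected theorem PD.optionGetD {o : α → Option β} {d : α → β} (ho : PD t₁ s₁ o) (hd : PD t₂ s₂ d) :
    PD (max t₁ (max t₂ t₁)) (max s₂ s₁) (fun a => (o a).getD (d a)) :=
  (ho.enc.iteNil hd.enc ho.enc.cdr).of_enc fun a => by cases o a <;> rfl

protected theorem PD.cons {x : α → β} {l : α → List β} (hx : PD t₁ s₁ x) (hl : PD t₂ s₂ l) :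
    PD (max t₁ t₂) (max s₁ s₂) (fun a => x a :: l a) := (hx.pair hl).of_enc fun _ => rfl

protected theorem PD.tail {l : α → List β} (hl : PD t s l) : PD t s (fun a => (l a).tail) :=
  hl.enc.cdr.of_enc fun a => by cases l a <;> rfl

protected theorem PD.head? {l : α → List β} (hl : PD t s l) : PD (max t 1) s (fun a => (l a).head?) :=
  ((hl.enc.iteNil (PD.const D.nil) ((PD.const D.nil).dcons hl.enc.car)).of_enc
    fun a => by cases l a <;> rfl).mono (by omega) (by omega)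

protected theorem PD.headD {l : α → List β} {d : α → β} (hl : PD t₁ s₁ l) (hd : PD t₂ s₂ d) :
    PD (max (max t₁ 1) t₂) (max s₂ s₁) (fun a => (l a).headD (d a)) :=
  ((hl.head?.optionGetD hd).congr fun a => by cases l a <;> rfl).mono (by omega) le_rfl

protected theorem PD.isEmpty {l : α → List β} (hl : PD t s l) : PD (max t 1) 0 (fun a => (l a).isEmpty) :=
  ((hl.enc.iteNil (PD.const true) (PD.const false)).congr
    fun a => by cases l a <;> rfl).mono (by omega) (by omega)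

end Crest.Agent.Lib.PD
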