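import Crest.Agent.Lib.PD.Core

/-! Loops with explicit degrees: `of_while`, `foldl`, `reverse`, `map`. -/

set_option autoImplicit false
set_option linter.dupNamespace false

namespace Crest.Agent.Lib.PD

open Crest.Agent.Lib.PT

variable {α β γ δ σ : Type} [Enc α] [Enc β] [Enc γ] [Enc δ] [Enc σ]
variable {t s t₁ s₁ t₂ s₂ t₃ s₃ t₄ s₄ m b : ℕ}

protected theorem PD.optionElim {o : α → Option β} {d : α → γ} {g : α → β → γ} (ho : PD t₁ s₁ o)
    (hd : PD t₂ s₂ d) (hg : PD t₃ s₃ (fun p : α × β => g p.1 p.2)) :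
    PD (max (max t₁ t₂) (t₃ * max 1 s₁)) (max s₂ (s₃ * max 1 s₁))
      (fun a => (o a).elim (d a) (g a)) := by
  have hx' := PD.id.pair ho.enc.cdr
  have h1 : t₁ = max 1 t₁ ∨ t₁ = 0 := by omega
  have hin := ho.size_in
  obtain ⟨⟨R, hR, ⟨pc, hc⟩⟩, -⟩ := ho
  obtain ⟨⟨S, hS, ⟨pf, hf⟩⟩, hd2⟩ := hd
  obtain ⟨⟨X, hX, ⟨px, hx'⟩⟩, hxs⟩ := hx'
  obtain ⟨⟨G, hG, ⟨pg, hg⟩⟩, hg2⟩ := hg
  obtain ⟨cg, hG⟩ := hG.exists_bound
  obtain ⟨cs, hg2⟩ := hg2.exists_bound
  have hX' : DB t₁ X := by
    rcases h1 with h1 | h1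
    · rw [h1]; exact hX
    · subst h1
      obtain ⟨c, hin⟩ := hin
      obtain ⟨c', hX⟩ := hX
      exact ⟨c' * c, fun a => (hX a).trans (by
        have := hin a
        simp at this ⊢
        exact Nat.mul_le_mul_left _ this)⟩
  refine ⟨⟨fun a => (R a + X a + S a) + cg * sz (a, (enc (o a)).cdr) ^ t₃,
    ((hR.add_same hX').add hS).add ((hxs.pow t₃).const_mul cg),
    .ite pc pf (.comp pg px), fun a => ?_⟩,
    (hd2.add ((hxs.pow s₃).const_mul cs)).of_le fun a => ?_⟩
  · obtain ⟨k, hk, h0⟩ := hc a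
    cases h : o a with
    | none =>
      obtain ⟨m, hm, h4⟩ := hf a
      rw [h] at h0
      exact ⟨k + m, by simp only; omega, h0.iteNil (by simpa [h] using h4)⟩
    | some v =>
      obtain ⟨m, hm, h4⟩ := hx' a
      obtain ⟨n, hn, h5⟩ := hg (a, v)
      have h7 := hG (a, v) (sz (a, (enc (o a)).cdr)) (by rw [h]; exact le_rfl)
      simp only [h] at h4 h0 h7 ⊢
      exact ⟨k + (m + n), by beta_reduce at *; omega, h0.iteCons (h4.comp h5)⟩
  · cases h : o a with
    | none => simp [h]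
    | some v =>
      have h7 := hg2 (a, v) (sz (a, (enc (o a)).cdr)) (by rw [h]; exact le_rfl)
      simp only [h, Option.elim_some] at h7 ⊢
      omega

/-- Hoare-style `while` loop. -/
protected theorem PD.of_while {f : α → β} (step : σ → σ) (c : σ → Bool) (ini : α → σ)
    (out : σ → β) (Inv : α → σ → Prop) (μ : σ → ℕ) (B : α → ℕ)
    (hs : PD t₁ s₁ step) (hc : PD t₂ s₂ c) (hi : PD t₃ s₃ ini) (ho : PD t₄ s₄ out)
    (hμ : DB m (fun a => μ (ini a))) (hB : DB b B)
    (h0 : ∀ a, Inv a (ini a))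
    (hstep : ∀ a s, Inv a s → c s = true → Inv a (step s) ∧ μ (step s) < μ s)
    (hsz : ∀ a s, Inv a s → sz s ≤ B a)
    (hout : ∀ a s, Inv a s → c s = false → out s = f a) :
    PD (max (max t₃ (m + max t₂ t₁ * b)) (t₄ * b)) (s₄ * b) f := by
  have key : ∀ a n s, Inv a s → μ s ≤ n → ∃ N, N ≤ n ∧ (∀ i, i < N → c (step^[i] s) = true) ∧
      c (step^[N] s) = false ∧ ∀ i, i ≤ N → Inv a (step^[i] s) := by
    intro a n
    induction n with
    | zero =>
      intro s hs hμ
      refine ⟨0, le_rfl, fun i hi => absurd hi (by omega), ?_, fun i hi => ?_⟩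
      · by_contra h
        have := (hstep a s hs (by simpa using h)).2
        omega
      · obtain rfl : i = 0 := by omega
        exact hs
    | succ n ih =>
      intro s hs hμ
      by_cases h : c s = true
      · obtain ⟨h1, h2⟩ := hstep a s hs h
        obtain ⟨N, hN, h3, h4, h5⟩ := ih (step s) h1 (by omega)
        refine ⟨N + 1, by omega, fun i hi => ?_, h4, fun i hi => ?_⟩
        · cases i with
          | zero => exact h
          | succ i => exact h3 i (by omega)
        · cases i with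
          | zero => exact hs
          | succ i => exact h5 i (by omega)
      · refine ⟨0, by omega, fun i hi => absurd hi (by omega), by simpa using h, fun i hi => ?_⟩
        obtain rfl : i = 0 := by omega
        exact hs
  choose N hN h1 h2 h3 using fun a => key a _ (ini a) (h0 a) le_rfl
  obtain ⟨⟨S, hS, hs⟩, -⟩ := hs
  obtain ⟨⟨C, hC, hc⟩, -⟩ := hc
  obtain ⟨⟨T, hT, hi⟩, -⟩ := hi
  obtain ⟨c1, hS⟩ := (hS.mono (le_max_right t₂ t₁)).exists_bound
  obtain ⟨c2, hC⟩ := (hC.mono (le_max_left t₂ t₁)).exists_bound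
  have hl : PD (max t₃ (m + max t₂ t₁ * b)) b (fun a => step^[N a] (ini a)) := by
    refine ⟨⟨_, ?_, hs.whileLoop hc hi N (fun a => (c2 + c1) * B a ^ max t₂ t₁ + 5) h1 h2 ?_⟩,
      hB.of_le fun a => hsz a _ (h3 a _ le_rfl)⟩
    · exact hT.add (((hμ.of_le hN).add_const 1).mul (((hB.pow _).const_mul _).add_const 5))
    · intro a i hi
      have := hS _ _ (hsz a _ (h3 a i hi))
      have := hC _ _ (hsz a _ (h3 a i hi))
      rw [add_mul]; omega
  exact (ho.comp hl).congr fun a => (hout a _ (h3 a _ le_rfl) (h2 a)).symm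

/-- Left fold whose partial results have size degree `b`. -/
protected theorem PD.foldl {f : α → γ → β → γ} {l : α → List β} {ini : α → γ} (B : α → ℕ)
    (hf : PD t₁ s₁ (fun p : α × γ × β => f p.1 p.2.1 p.2.2)) (hl : PD t₂ s₂ l)
    (hi : PD t₃ s₃ ini) (hB : DB b B)
    (hsz : ∀ a i, sz (((l a).take i).foldl (f a) (ini a)) ≤ B a) :
    PD (max (max 1 (max t₂ t₃)) (s₂ + max 1 t₁ * max 1 (max s₂ b))) b
      (fun a => (l a).foldl (f a) (ini a)) := by
  have h1 : PD (max 1 t₁) s₁ (fun p : (α × List β × γ) × β => f p.1.1 p.1.2.2 p.2) :=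
    (hf.comp (f := fun p : (α × List β × γ) × β => (p.1.1, p.1.2.2, p.2))
      (PD.id.fst.fst.pair (PD.id.fst.snd.snd.pair PD.id.snd))).mono (by simp) (by simp)
  have hB' : DB (max 1 (max s₂ b)) (fun a => sz a + (sz (l a) + B a) + 2) :=
    (DB.sz_id.add (hl.size.add hB)).add_const 2
  refine ((PD.of_while (σ := α × List β × γ)
    (fun s => (s.1, s.2.1.tail, s.2.1.head?.elim s.2.2 (fun x => f s.1 s.2.2 x)))
    (fun s => !s.2.1.isEmpty) (fun a => (a, l a, ini a)) (fun s => s.2.2)
    (fun a s => s.1 = a ∧ ∃ i, s.2.1 = (l a).drop i ∧ s.2.2 = ((l a).take i).foldl (f a) (ini a))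
    (fun s => s.2.1.length) (fun a => sz a + (sz (l a) + B a) + 2)
    (PD.id.fst.pair (PD.id.snd.fst.tail.pair
      (PD.optionElim (g := fun (s : α × List β × γ) x => f s.1 s.2.2 x) PD.id.snd.fst.head?
        PD.id.snd.snd h1)))
    PD.id.snd.fst.isEmpty.not (PD.id.pair (hl.pair hi)) PD.id.snd.snd hl.length_le hB'
    (fun a => ⟨rfl, 0, by simp, by simp⟩) ?_ ?_ ?_).of_size
      (hB.of_le fun a => by simpa using hsz a (l a).length)).mono ?_ le_rfl
  · rintro a ⟨a', m, acc⟩ ⟨rfl, i, h2, h3⟩ hc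
    simp only at h2 h3 hc
    cases m with
    | nil => simp at hc
    | cons x m =>
      have hi : i < (l a').length := by
        by_contra h
        rw [List.drop_of_length_le (by omega)] at h2
        simp at h2
      rw [List.drop_eq_getElem_cons hi] at h2
      simp only [List.cons.injEq] at h2
      refine ⟨⟨rfl, i + 1, by simpa using h2.2, ?_⟩, by simp⟩
      rw [List.take_succ_eq_append_getElem hi, List.foldl_append, ← h3, ← h2.1]
      simp
  · rintro a ⟨a', m, acc⟩ ⟨rfl, i, h2, h3⟩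
    simp only at h2 h3
    have := sz_drop_le i (l a')
    have := hsz a' i
    subst h2 h3
    simp only [sz_pair]
    omega
  · rintro a ⟨a', m, acc⟩ ⟨rfl, i, h2, h3⟩ hc
    simp only at h2 h3 hc
    have : m = [] := by simpa using hc
    subst this
    rw [h3, List.take_of_length_le (List.drop_eq_nil_iff.1 h2.symm)]
  · have e : max (max (max (max 1 1) 1) (max 1 (max 1 (max (max (max 1 1) 1) (max 1 t₁ * max 1 1))))) 0
        = max 1 t₁ := by simp
    have : 1 * max 1 (max s₂ b) ≤ max 1 t₁ * max 1 (max s₂ b) :=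
      Nat.mul_le_mul_right _ (le_max_left _ _)
    simp only [max_self, mul_one, ← max_assoc] at this ⊢
    omega

/-- Left fold with an invariant bounding the size of the accumulator. -/
protected theorem PD.foldl_inv {f : α → γ → β → γ} {l : α → List β} {ini : α → γ}
    (Inv : α → γ → Prop) (B : α → ℕ)
    (hf : PD t₁ s₁ (fun p : α × γ × β => f p.1 p.2.1 p.2.2)) (hl : PD t₂ s₂ l)
    (hi : PD t₃ s₃ ini) (hB : DB b B) (h0 : ∀ a, Inv a (ini a))
    (hstep : ∀ a acc x, x ∈ l a → Inv a acc → Inv a (f a acc x))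
    (hsz : ∀ a acc, Inv a acc → sz acc ≤ B a) :
    PD (max (max 1 (max t₂ t₃)) (s₂ + max 1 t₁ * max 1 (max s₂ b))) b
      (fun a => (l a).foldl (f a) (ini a)) := by
  refine PD.foldl B hf hl hi hB fun a i => hsz a _ ?_
  have : ∀ (m : List β) (acc : γ), (∀ x ∈ m, x ∈ l a) → Inv a acc → Inv a (m.foldl (f a) acc) := by
    intro m
    induction m with
    | nil => intro acc _ h; exact h
    | cons x m ih =>
      intro acc hm h
      exact ih _ (fun y hy => hm y (by simp [hy])) (hstep a acc x (hm x (by simp)) h)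
  exact this _ _ (fun x hx => List.mem_of_mem_take hx) (h0 a)

theorem pd_revAppend : PD 2 1 (fun p : List β × List β => p.1.reverse ++ p.2) := by
  have := PD.foldl (f := fun (_ : List β × List β) (acc : List β) (x : β) => x :: acc)
    (l := fun p => p.1) (ini := fun p => p.2) (fun p => sz p)
    (PD.id.snd.snd.cons PD.id.snd.fst) PD.id.fst PD.id.snd DB.sz_id (fun p i => by
      have h1 := sz_take_le i p.1
      have h2 := sz_append_le (p.1.take i).reverse p.2
      rw [sz_reverse] at h2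
      rw [List.foldl_flip_cons_eq_append', sz_prod p]
      omega)
  exact (this.congr fun a => by rw [List.foldl_flip_cons_eq_append']).mono (by simp) le_rfl

protected theorem PD.reverse {l : α → List β} (hl : PD t s l) :
    PD (max (max t 1) (2 * s)) s (fun a => (l a).reverse) :=
  ((pd_revAppend.comp (hl.pair (PD.const []))).congr fun a => by simp).mono (by simp) (by simp)

protected theorem PD.append {l m : α → List β} (hl : PD t₁ s₁ l) (hm : PD t₂ s₂ m) :
    PD (max (max (max t₁ 1) t₂) (2 * max s₁ s₂)) (max s₁ s₂) (fun a => l a ++ m a) :=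
  ((pd_revAppend.comp (hl.reverse.pair hm)).congr fun a => by simp).mono (by omega) (by simp)

theorem timeF_mapStep {g : α → β → γ} {G : α × β → ℕ}
    (hg : TimeF (fun p : α × β => g p.1 p.2) G) :
    TimeF (fun s : α × List β × List γ =>
        (s.1, s.2.1.tail, s.2.1.head?.elim s.2.2 (fun x => g s.1 x :: s.2.2)))
      (fun s => 20 * sz s + s.2.1.head?.elim 0 (fun x => G (s.1, x))) := by
  obtain ⟨p, hp⟩ := hg
  refine ⟨.ite (.comp .car .cdr) .id (.cons .car (.cons (.comp .cdr (.comp .car .cdr))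
    (.cons (.comp p (.cons .car (.comp .car (.comp .car .cdr)))) (.comp .cdr .cdr)))), ?_⟩
  rintro ⟨a, l, acc⟩
  cases l with
  | nil =>
    refine ⟨_, ?_, Eval.iteNil ((Eval.cdr _).comp (Eval.car _)) (Eval.id _)⟩
    simp [sz, enc_pair, enc_nil]; omega
  | cons x l =>
    obtain ⟨n, hn, h⟩ := hp (a, x)
    refine ⟨_, ?_, Eval.iteCons ((Eval.cdr _).comp (Eval.car _)) ((Eval.car _).cons
      ((((Eval.cdr _).comp (Eval.car _)).comp (Eval.cdr _)).cons
        ((((Eval.car _).cons (((Eval.cdr _).comp (Eval.car _)).comp (Eval.car _))).comp h).cons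
          ((Eval.cdr _).comp (Eval.cdr _)))))⟩
    simp [sz, enc_pair, enc_cons] at hn ⊢; omega

omit [Enc β] in
theorem sz_map_le {g : β → γ} (l : List β) (M : ℕ) (h : ∀ x ∈ l, sz (g x) ≤ M) :
    sz (l.map g) ≤ (M + 1) * l.length + 1 := by
  have := sz_list_le (l.map g) M (by simpa using h)
  simpa using this

protected theorem PD.map {l : α → List β} {g : α → β → γ} (hl : PD t₁ s₁ l)
    (hg : PD t₂ s₂ (fun p : α × β => g p.1 p.2)) :
    PD (max (max t₁ 1) (s₁ + max (t₂ * max 1 s₁) (1 + 2 * (s₁ + s₂ * max 1 s₁))))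
      (s₁ + s₂ * max 1 s₁) (fun a => (l a).map (g a)) := by
  obtain ⟨⟨G, hG, hg⟩, hg2⟩ := hg
  obtain ⟨cg, hG⟩ := hG.exists_bound
  obtain ⟨cs, hg2⟩ := hg2.exists_bound
  obtain ⟨⟨C, ⟨cc, hC⟩, hc⟩, -⟩ :=
    (PD.id.snd.fst.isEmpty.not : PD _ _ (fun s : α × List β × List γ => !s.2.1.isEmpty))
  simp only [max_self, pow_one] at hC
  obtain ⟨⟨T, hT, hi⟩, -⟩ := PD.id.pair (hl.pair (PD.const ([] : List γ)))
  have hX : DB (max 1 s₁) (fun a => sz a + sz (l a) + 1) := (DB.sz_id.add hl.size).add_const 1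
  have hO : DB (s₁ + s₂ * max 1 s₁)
      (fun a => (l a).length * (cs * (sz a + sz (l a) + 1) ^ s₂ + 1) + 1) :=
    (hl.length_le.mul (((hX.pow s₂).const_mul cs).add_const 1)).add_const 1
  have hO' : ∀ a (m : List β), (∀ x ∈ m, x ∈ l a) → m.length ≤ (l a).length →
      sz (m.map (g a)) ≤ (l a).length * (cs * (sz a + sz (l a) + 1) ^ s₂ + 1) + 1 := by
    intro a m hm hlen
    refine (sz_map_le m (cs * (sz a + sz (l a) + 1) ^ s₂) fun x hx => ?_).trans ?_
    · exact hg2 (a, x) _ (by have := sz_le_of_mem (hm x hx); simp; omega)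
    · rw [mul_comm]; exact Nat.add_le_add_right (Nat.mul_le_mul_right _ hlen) 1
  have hw := TimeF.of_while (σ := α × List β × List γ)
    (f := fun a => (a, [], ((l a).map (g a)).reverse))
    (fun s => (s.1, s.2.1.tail, s.2.1.head?.elim s.2.2 (fun x => g s.1 x :: s.2.2)))
    (fun s => !s.2.1.isEmpty) (fun a => (a, l a, []))
    (fun a s => s.1 = a ∧ ∃ m, l a = m ++ s.2.1 ∧ s.2.2 = (m.map (g a)).reverse)
    (fun s => s.2.1.length)
    (fun a => cg * (sz a + sz (l a) + 1) ^ t₂ + ((cc + 20) * ((sz a + sz (l a) + 1) +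
      ((l a).length * (cs * (sz a + sz (l a) + 1) ^ s₂ + 1) + 1) + 1) + 5))
    (timeF_mapStep hg) hc hi (fun a => ⟨rfl, [], by simp, by simp⟩) ?_ ?_ ?_
  · have h1 : PD (max (max t₁ 1) (s₁ + max (t₂ * max 1 s₁) (max 1 (s₁ + s₂ * max 1 s₁))))
        (max 1 (s₁ + s₂ * max 1 s₁))
        (fun a => ((a, [], ((l a).map (g a)).reverse) : α × List β × List γ)) := by
      refine ⟨⟨_, ?_, hw⟩, ?_⟩
      · refine ((hT.add ((hl.length_le.add_const 1).mul (((hX.pow t₂).const_mul cg).add
          ((((hX.add hO).add_const 1).const_mul _).add_const 5)))).mono ?_)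
        omega
      · refine ((DB.sz_id.add hO).add_const 3).of_le fun a => ?_
        have := hO' a (l a) (fun _ h => h) le_rfl
        simp only [sz_pair, sz_nil, sz_reverse]; omega
    have h2 := (h1.snd.snd.of_size (hO.of_le fun a => by
      simpa using hO' a (l a) (fun _ h => h) le_rfl)).reverse
    refine (h2.congr fun a => by simp).mono ?_ le_rfl
    omega
  · rintro a ⟨a', r, acc⟩ ⟨rfl, m, h2, h3⟩ hc
    simp only at h2 h3 hc
    cases r with
    | nil => simp at hc
    | cons x r => exact ⟨⟨rfl, m ++ [x], by simp [h2], by simp [h3]⟩, by simp⟩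
  · rintro a ⟨a', r, acc⟩ ⟨rfl, m, h2, h3⟩
    simp only at h2 h3
    have h4 := hO' a' m (fun x hx => by rw [h2]; simp [hx]) (by rw [h2]; simp)
    have h5 : sz r ≤ sz (l a') := by rw [h2]; exact sz_sublist_le (List.sublist_append_right _ _)
    have h6 := hC (a', r, acc)
    have h7 : r.head?.elim 0 (fun x => G (a', x)) ≤ cg * (sz a' + sz (l a') + 1) ^ t₂ := by
      cases r with
      | nil => simp
      | cons x r => exact hG (a', x) _ (by simp at h5 ⊢; omega)
    have h8 : sz (a', r, acc) ≤ (sz a' + sz (l a') + 1) +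
      ((l a').length * (cs * (sz a' + sz (l a') + 1) ^ s₂ + 1) + 1) + 1 := by
      simp only [sz_pair, h3, sz_reverse]; omega
    have h9 := Nat.mul_le_mul_left (cc + 20) h8
    simp only
    rw [add_mul] at h9
    omega
  · rintro a ⟨a', r, acc⟩ ⟨rfl, m, h2, h3⟩ hc
    simp only at h2 h3 hc
    have : r = [] := by simpa using hc
    subst this
    simp [h2, h3]

end Crest.Agent.Lib.PD
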