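import Crest.Agent.Lib.PD.Loop
import Crest.Agent.Lib.PT.Nat

/-! Equality test and number primitives with explicit degrees. -/

set_option autoImplicit false
set_option linter.dupNamespace false

namespace Crest.Agent.Lib.PD

open Crest.Agent.Lib.PT

variable {α β γ δ σ : Type} [Enc α] [Enc β] [Enc γ] [Enc δ] [Enc σ]

/-- One step of the equality test. -/
def primA_eqStep (s : List (D × D) × Bool) : List (D × D) × Bool :=
  s.1.head?.elim s (fun p =>
    D.iteNil p.1 (D.iteNil p.2 (s.1.tail, s.2) ([], false))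
      (D.iteNil p.2 ([], false) ((p.1.car, p.2.car) :: (p.1.cdr, p.2.cdr) :: s.1.tail, s.2)))

theorem primA_bits {t s : ℕ} {n : α → ℕ} (hn : PD t s n) : PD t s (fun a => (n a).bits) :=
  hn.of_enc fun _ => rfl

theorem primA_bodd {t s : ℕ} {n : α → ℕ} (hn : PD t s n) :
    PD (max t 1) 0 (fun a => (n a).bodd) :=
  ((((primA_bits hn).headD (PD.const false)).congr fun a => by
    rw [Nat.bodd_eq_bits_head]; cases (n a).bits <;> rfl).mono (by omega) le_rfl).bool

theorem primA_div2 {t s : ℕ} {n : α → ℕ} (hn : PD t s n) : PD t s (fun a => (n a).div2) :=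
  (primA_bits hn).tail.of_enc fun a => by rw [enc_nat, Nat.div2_bits_eq_tail]

theorem primA_isEmpty_bits (n : ℕ) : n.bits.isEmpty = decide (n = 0) := by
  have h1 := Nat.size_eq_bits_len n
  have h2 : n.size = 0 ↔ n = 0 := Nat.size_eq_zero
  rw [Bool.eq_iff_iff, List.isEmpty_iff_length_eq_zero, decide_eq_true_eq, h1, h2]

theorem pd_eqD : PD 3 0 (fun p : D × D => decide (p.1 = p.2)) := by
  have hs : PD 1 1 primA_eqStep :=
    (PD.optionElim (g := fun (s : List (D × D) × Bool) (p : D × D) =>
      (D.iteNil p.1 (D.iteNil p.2 (s.1.tail, s.2) ([], false))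
        (D.iteNil p.2 ([], false) ((p.1.car, p.2.car) :: (p.1.cdr, p.2.cdr) :: s.1.tail, s.2)) :
          List (D × D) × Bool)) PD.id.fst.head? PD.id
      (PD.id.snd.fst.iteNil
        (PD.id.snd.snd.iteNil (PD.id.fst.fst.tail.pair PD.id.fst.snd) (PD.const _))
        (PD.id.snd.snd.iteNil (PD.const _)
          (((PD.id.snd.fst.car.pair PD.id.snd.snd.car).cons
            ((PD.id.snd.fst.cdr.pair PD.id.snd.snd.cdr).cons PD.id.fst.fst.tail)).pair
              PD.id.fst.snd)))).mono (by decide) (by decide)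
  refine (PD.of_while (σ := List (D × D) × Bool) (m := 1) (b := 1) primA_eqStep
    (fun s => !s.1.isEmpty)
    (fun p => ([p], true)) (fun s => s.2)
    (fun p s => ((s.2 = true ∧ ∀ q ∈ s.1, q.1 = q.2) ↔ p.1 = p.2) ∧
      (s.1.map (fun q => sz q.1 + sz q.2)).sum ≤ sz p)
    (fun s => (s.1.map (fun q => sz q.1 + sz q.2)).sum) (fun p => 3 * sz p + 7)
    hs PD.id.fst.isEmpty.not ((PD.id.cons (PD.const [])).pair (PD.const true)) PD.id.snd
    (DB.sz_id.of_le fun p => by simp [sz_prod p]) ((DB.sz_id.const_mul 3).add_const 7)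
    (fun p => ⟨by simp, by simp [sz_prod p]⟩) ?_ ?_ ?_).bool.mono (by decide) le_rfl
  · rintro p ⟨st, ok⟩ ⟨h1, h2⟩ hc
    cases st with
    | nil => simp at hc
    | cons q st =>
      obtain ⟨u, v⟩ := q
      have hu := u.size_pos
      have hv := v.size_pos
      simp only [List.map_cons, List.sum_cons, List.mem_cons, forall_eq_or_imp, sz_D] at h1 h2 ⊢
      rw [← h1]
      cases u <;> cases v <;> simp [primA_eqStep] at h2 ⊢ <;> (try omega)
      refine ⟨⟨by tauto, by omega⟩, by omega⟩
  · rintro p ⟨st, ok⟩ ⟨-, h2⟩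
    have : ∀ l : List (D × D), sz l ≤ 3 * (l.map (fun q => sz q.1 + sz q.2)).sum + 1 := by
      intro l
      induction l with
      | nil => simp
      | cons q l ih =>
        have := sz_pos q.1
        simp only [sz_cons, List.map_cons, List.sum_cons, sz_prod q]
        omega
    have := this st
    simp only [sz_pair, sz_bool] at h2 ⊢
    omega
  · rintro p ⟨st, ok⟩ ⟨h1, -⟩ hc
    have : st = [] := by simpa using hc
    subst this
    rw [Bool.eq_iff_iff]
    simpa using h1

theorem pd_lt : PD 6 0 (fun p : ℕ × ℕ => decide (p.1 < p.2)) := by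
  refine (PD.of_while (σ := ℕ × ℕ × Bool) (m := 1) (b := 1)
    (fun s => (s.1.div2, s.2.1.div2,
      (!s.1.bodd && (s.2.1.bodd || s.2.2) || s.2.1.bodd && s.2.2)))
    (fun s => !(s.1.bits.isEmpty && s.2.1.bits.isEmpty))
    (fun p => (p.1, p.2, false)) (fun s => s.2.2)
    (fun p s => (p.1 < p.2 ↔ s.1 < s.2.1 + s.2.2.toNat) ∧ s.1 ≤ p.1 ∧ s.2.1 ≤ p.2)
    (fun s => s.1.size + s.2.1.size) (fun p => sz p + 6)
    ((primA_div2 PD.id.fst).pair ((primA_div2 PD.id.snd.fst).pair
      (((primA_bodd PD.id.fst).not.and ((primA_bodd PD.id.snd.fst).or PD.id.snd.snd)).or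
        ((primA_bodd PD.id.snd.fst).and PD.id.snd.snd))))
    ((primA_bits PD.id.fst).isEmpty.and (primA_bits PD.id.snd.fst).isEmpty).not
    (PD.id.fst.pair (PD.id.snd.pair (PD.const false))) PD.id.snd.snd
    (DB.sz_id.of_le fun p => by rw [sz_prod p, sz_nat, sz_nat]; simp only; omega)
    (DB.sz_id.add_const 6) (fun p => by simp) ?_ ?_ ?_).bool.mono (by decide) le_rfl
  · rintro p ⟨x, y, c⟩ ⟨h1, h2, h3⟩ hc
    simp only [primA_isEmpty_bits, Bool.not_eq_true', Bool.and_eq_false_iff,
      decide_eq_false_iff_not] at h1 h2 h3 hc ⊢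
    have hx := Nat.bodd_add_div2 x
    have hy := Nat.bodd_add_div2 y
    have hsx := size_div2 x
    have hsy := size_div2 y
    have hx0 : x.size = 0 ↔ x = 0 := Nat.size_eq_zero
    have hy0 : y.size = 0 ↔ y = 0 := Nat.size_eq_zero
    refine ⟨⟨?_, by omega, by omega⟩, by omega⟩
    rw [h1]
    revert hx hy
    cases x.bodd <;> cases y.bodd <;> cases c <;> simp <;> omega
  · rintro p ⟨x, y, c⟩ ⟨h1, h2, h3⟩
    have := sz_nat_mono h2
    have := sz_nat_mono h3
    rw [sz_prod p]
    simp only [sz_pair, sz_bool] at *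
    omega
  · rintro p ⟨x, y, c⟩ ⟨h1, -⟩ hc
    simp only [primA_isEmpty_bits, Bool.not_eq_false', Bool.and_eq_true, decide_eq_true_eq]
      at hc h1 ⊢
    obtain ⟨rfl, rfl⟩ := hc
    cases c <;> simp at h1 ⊢ <;> omega

theorem pd_succ : PD 6 1 (fun n : ℕ => n + 1) := by
  refine PD.of_enc (g := fun n : ℕ => (n + 1).bits) ?_ fun _ => rfl
  refine (PD.of_while (σ := ℕ × List Bool) (m := 1) (b := 1)
    (fun s => (s.1.div2, false :: s.2)) (fun s => s.1.bodd) (fun n => (n, []))
    (fun s => s.2.reverse ++ true :: s.1.div2.bits)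
    (fun n s => s.2.length + s.1.size ≤ n.size ∧ (n + 1).bits = s.2.reverse ++ (s.1 + 1).bits)
    (fun s => s.1.size) (fun n => sz n + 2)
    ((primA_div2 PD.id.fst).pair ((PD.const false).cons PD.id.snd)) (primA_bodd PD.id.fst)
    (PD.id.pair (PD.const []))
    (pd_revAppend.comp (PD.id.snd.pair ((PD.const true).cons (primA_bits (primA_div2 PD.id.fst)))))
    (DB.sz_id.of_le fun n => by rw [sz_nat]; simp only; omega)
    (DB.sz_id.add_const 2) (fun n => by simp) ?_ ?_ ?_).mono (by decide) (by decide)
  · rintro n ⟨x, acc⟩ ⟨h1, h2⟩ hc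
    simp only at h1 h2 hc ⊢
    have hx := Nat.bodd_add_div2 x
    have hsx := size_div2 x
    have hx0 : x.size = 0 ↔ x = 0 := Nat.size_eq_zero
    rw [hc] at hx
    simp only [Bool.toNat_true] at hx
    refine ⟨⟨by simp only [List.length_cons]; omega, ?_⟩, by omega⟩
    have e : x + 1 = Nat.bit false (x.div2 + 1) := by simp [Nat.bit_val]; omega
    rw [h2, e, Nat.bits_append_bit _ _ (by omega)]
    simp
  · rintro n ⟨x, acc⟩ ⟨h1, -⟩
    simp only [sz_pair, sz_boolList, sz_nat] at *
    omega
  · rintro n ⟨x, acc⟩ ⟨-, h2⟩ hc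
    simp only at h2 hc ⊢
    have hx := Nat.bodd_add_div2 x
    rw [hc] at hx
    simp only [Bool.toNat_false] at hx
    have e : x + 1 = Nat.bit true x.div2 := by simp [Nat.bit_val]; omega
    rw [h2, e, Nat.bits_append_bit _ _ (fun _ => rfl)]

theorem pd_length : PD 8 1 (fun l : List β => l.length) := by
  have key : ∀ (l : List β) (k : ℕ), l.foldl (fun (acc : ℕ) (_ : β) => acc + 1) k = k + l.length := by
    intro l
    induction l with
    | nil => simp
    | cons x l ih => intro k; simp only [List.foldl_cons, ih, List.length_cons]; omega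
  have := PD.foldl (f := fun (_ : List β) (acc : ℕ) (_ : β) => acc + 1)
    (l := fun l => l) (ini := fun _ => 0) (fun l => 6 * sz l + 1)
    (pd_succ.comp PD.id.snd.fst) PD.id (PD.const 0) ((DB.sz_id.const_mul 6).add_const 1)
    (fun l i => by
      rw [key]
      have h1 := sz_nat_le_self (0 + (l.take i).length)
      have h2 := length_le_sz l
      have h3 : (l.take i).length ≤ l.length := by simp
      omega)
  exact (this.congr fun l => by rw [key]; simp).mono (by decide) le_rfl

theorem pd_rangeLen : PD 20 2 (fun l : List β => List.range l.length) := by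
  have key : ∀ (l : List β) (k : ℕ), l.foldl (fun (acc : ℕ × List ℕ) (_ : β) =>
      (acc.1 + 1, acc.1 :: acc.2)) (k, (List.range k).reverse)
      = (k + l.length, (List.range (k + l.length)).reverse) := by
    intro l
    induction l with
    | nil => simp
    | cons x l ih =>
      intro k
      have e : k :: (List.range k).reverse = (List.range (k + 1)).reverse := by
        simp [List.range_succ]
      rw [List.foldl_cons]
      simp only [e]
      rw [ih, List.length_cons, show k + 1 + l.length = k + (l.length + 1) by omega]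
  have key' : ∀ (l : List β), l.foldl (fun (acc : ℕ × List ℕ) (_ : β) =>
      (acc.1 + 1, acc.1 :: acc.2)) (0, []) = (l.length, (List.range l.length).reverse) := by
    intro l
    simpa using key l 0
  have hB : DB 2 (fun l : List β => (6 * sz l + 3) * (sz l + 1)) :=
    ((DB.sz_id.const_mul 6).add_const 3).mul (DB.sz_id.add_const 1)
  have := PD.foldl (f := fun (_ : List β) (acc : ℕ × List ℕ) (_ : β) =>
      (acc.1 + 1, acc.1 :: acc.2))
    (l := fun l => l) (ini := fun _ => (0, [])) (fun l => (6 * sz l + 3) * (sz l + 1))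
    ((pd_succ.comp PD.id.snd.fst.fst).pair (PD.id.snd.fst.fst.cons PD.id.snd.fst.snd)) PD.id
    (PD.const _) hB
    (fun l i => by
      rw [key']
      have h2 := length_lt_sz l
      have h3 : (l.take i).length ≤ l.length := by simp
      generalize (l.take i).length = k at h3
      have h1 := sz_nat_le_self k
      have h4 := sz_list_le (List.range k) (6 * sz l + 1) (fun x hx => by
        have := sz_nat_le_self x
        have := List.mem_range.1 hx
        omega)
      rw [List.length_range] at h4
      have h5 := Nat.mul_le_mul_left (6 * sz l + 1 + 1) (h3.trans h2.le)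
      simp only [sz_pair, sz_reverse]
      nlinarith)
  exact (this.snd.reverse.congr fun l => by rw [key']; simp).mono (by decide) le_rfl

end Crest.Agent.Lib.PD
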