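import Crest.Agent.Lib.PD.Comb

/-! The tactic `pd`: builds a `PD` derivation by following the syntax of the function. -/

set_option autoImplicit false

namespace Crest.Agent.Lib.PD

/-- One step of `pd`; extended by `macro_rules` for new functions. -/
syntax "pd_step" : tactic

macro_rules | `(tactic| pd_step) => `(tactic| first
  | with_reducible exact PD.const _
  | with_reducible exact PD.id
  | with_reducible apply PD.fst
  | with_reducible apply PD.snd
  | with_reducible apply PD.pair
  | with_reducible apply PD.cons
  | with_reducible apply PD.not
  | with_reducible apply PD.and
  | with_reducible apply PD.or
  | with_reducible apply PD.beq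
  | with_reducible apply PD.bne
  | with_reducible apply PD.decide_lt
  | with_reducible apply PD.succ
  | with_reducible apply PD.rangeLen
  | with_reducible apply PD.length
  | with_reducible apply PD.flatten
  | with_reducible apply PD.zip
  | with_reducible apply PD.product
  | with_reducible apply PD.append
  | with_reducible apply PD.tail
  | with_reducible apply PD.headD
  | with_reducible apply PD.optionGetD
  | with_reducible apply PD.contains
  | with_reducible apply PD.natCode
  | with_reducible apply PD.listCode
  | with_reducible apply PD.map
  | with_reducible apply PD.filter
  | with_reducible apply PD.any
  | with_reducible apply PD.all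
  | with_reducible apply PD.find?
  | with_reducible apply PD.filterMap
  | with_reducible apply PD.findSome?
  | with_reducible apply PD.findIdx
  | with_reducible apply PD.ite)

/-- Prove `PD t s f` for numerals `t`, `s`. -/
macro "pd" : tactic => `(tactic|
  (apply PD.mono
   case h => repeat' pd_step
   all_goals first | decide | (simp only [tb]; omega)))

end Crest.Agent.Lib.PD
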